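import Vale.Agent.P113.Main

/-!
# P113: full positive answer to Q1

For every computable `ν > 0` there are a point, an open set and a force compiler such that the
trajectory from the point enters the open set iff the machine halts on the input.
-/

/-- Q1 of P113 holds for every computable `ν > 0`. -/
theorem Vale.Agent.Results.P113.HaltingForce.result :
    ∀ ν : ℝ, 0 < ν → Vale.Agent.P113.IsComputableReal ν → Vale.Agent.P113.HaltingDetection ν :=
  fun _ h1 h2 => Vale.Agent.P113.main_theorem h1 h2
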